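import Crest.Agent.N221.Base
import Crest.Agent.R208.N3

/-! Row 221: the function `ldet` and the comparison of the polar density with `exp St` (helper67). -/

set_option autoImplicit false

open MeasureTheory Set Filter Topology
open scoped ContDiff RealInnerProductSpace ENNReal
open Crest.GeometryTopology.Submanifold
open Crest.Agent.R241.DDefs Crest.Agent.R241.D2
open Crest.Agent.R208.J Crest.Agent.R208.L

noncomputable section

namespace Crest.Agent.N221

namespace UDn

/-! ### linear algebra -/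

section linalg

variable {N : ℕ}

/-- trace of an ambient operator -/
abbrev tr (A : Op N) : ℝ := LinearMap.trace ℝ (Euc N) (A : Euc N →ₗ[ℝ] Euc N)

lemma continuous_tr : Continuous (tr : Op N → ℝ) :=
  LinearMap.continuous_of_finiteDimensional
    ((LinearMap.trace ℝ (Euc N)) ∘ₗ (ContinuousLinearMap.coeLM ℝ : Op N →ₗ[ℝ] Euc N →ₗ[ℝ] Euc N))

lemma det_comp (A B : Op N) : (A ∘L B).det = A.det * B.det :=
  LinearMap.det_comp (A : Euc N →ₗ[ℝ] Euc N) (B : Euc N →ₗ[ℝ] Euc N)

lemma det_ne_of_inj (A : Op N) (h : ∀ x, A x = 0 → x = 0) : A.det ≠ 0 := by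
  intro h0
  have h1 := (LinearMap.det_eq_zero_iff_ker_ne_bot (f := (A : Euc N →ₗ[ℝ] Euc N))).1 h0
  exact h1 (LinearMap.ker_eq_bot'.2 h)

/-- a positive operator has positive determinant -/
lemma det_pos (A : Op N) (h : ∀ x, x ≠ 0 → 0 < ⟪A x, x⟫) : 0 < A.det := by
  set f : ℝ → ℝ := fun s => ((1 - s) • ContinuousLinearMap.id ℝ (Euc N) + s • A).det with hf
  have hc : Continuous f := ContinuousLinearMap.continuous_det.comp (by fun_prop)
  have h0 : f 0 = 1 := by simp [hf, ContinuousLinearMap.det]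
  have h1 : f 1 = A.det := by
    simp only [hf]
    congr 1
    ext1 x
    simp
  by_contra hn
  obtain ⟨s, hs, e⟩ := intermediate_value_Icc' zero_le_one hc.continuousOn
    (show (0 : ℝ) ∈ Icc (f 1) (f 0) from ⟨by rw [h1]; exact not_lt.1 hn, by rw [h0]; exact zero_le_one⟩)
  refine det_ne_of_inj _ (fun x hx => ?_) e
  by_contra hx0
  have h2 := congrArg (fun y => ⟪y, x⟫) hx
  simp only [_root_.add_apply, _root_.smul_apply, ContinuousLinearMap.id_apply,
    inner_add_left, inner_smul_left, conj_trivial, inner_zero_left] at h2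
  have h3 := h x hx0
  have h4 : 0 < ⟪x, x⟫ := real_inner_self_pos.2 hx0
  rcases hs.1.eq_or_lt with h5 | h5
  · rw [← h5] at h2; linarith
  · nlinarith [mul_pos h5 h3, mul_nonneg (sub_nonneg.2 hs.2) h4.le]

/-- Jacobi's formula for `A' = X A + A Y` -/
lemma hasDerivAt_log_det {A : ℝ → Op N} {X Y : Op N} {t : ℝ}
    (h : HasDerivAt A (X ∘L A t + A t ∘L Y) t) (hd : (A t).det ≠ 0) :
    HasDerivAt (fun s => Real.log (A s).det) (tr X + tr Y) t := by
  classical
  let b := (EuclideanSpace.basisFun (Fin N) ℝ).toBasis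
  let m : Op N → Matrix (Fin N) (Fin N) ℝ := fun B => LinearMap.toMatrix b b (B : Euc N →ₗ[ℝ] Euc N)
  have hdet : ∀ B, (m B).det = B.det := fun B => LinearMap.det_toMatrix b _
  have htr : ∀ B, (m B).trace = tr B := fun B => (LinearMap.trace_eq_matrix_trace ℝ b _).symm
  have hm : m (X ∘L A t + A t ∘L Y) = m X * m (A t) + m (A t) * m Y := by
    simp only [m, ContinuousLinearMap.toLinearMap_add, map_add, ← LinearMap.toMatrix_comp b b b]
    rfl
  have hH : R208.N.HD (fun s => m (A s)) (m (X ∘L A t + A t ∘L Y)) t := by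
    intro i j
    have h1 : HasDerivAt (fun s => A s (b j)) ((X ∘L A t + A t ∘L Y) (b j)) t := by
      simpa using h.clm_apply (hasDerivAt_const t (b j))
    have h2 := (LinearMap.toContinuousLinearMap (b.coord i)).hasFDerivAt.comp_hasDerivAt t h1
    simp only [m, LinearMap.toMatrix_apply]
    exact h2
  have hd' : (m (A t)).det ≠ 0 := by rwa [hdet]
  have h3 := R208.N.hasDerivAt_log_det hH hd'
  simp only [hdet, Real.log_abs] at h3
  refine h3.congr_deriv ?_
  have hu := Matrix.nonsing_inv_mul _ (isUnit_iff_ne_zero.2 hd')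
  have hu' := Matrix.mul_nonsing_inv _ (isUnit_iff_ne_zero.2 hd')
  rw [hm, Matrix.mul_add, Matrix.trace_add, ← Matrix.mul_assoc _ (m (A t)), hu, Matrix.one_mul,
    Matrix.trace_mul_comm, Matrix.mul_assoc, hu', Matrix.mul_one, htr, htr]

lemma det_sub_bound : ∃ C : ℝ, 0 < C ∧ ∀ K : Op N, ‖K‖ ≤ 1 →
    |(ContinuousLinearMap.id ℝ (Euc N) - K).det| ≤ C := by
  have := FiniteDimensional.proper_real (Op N)
  have hc : Continuous fun K : Op N => (ContinuousLinearMap.id ℝ (Euc N) - K).det :=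
    ContinuousLinearMap.continuous_det.comp (by fun_prop)
  obtain ⟨C, hC⟩ := (isCompact_closedBall (0 : Op N) 1).exists_bound_of_continuousOn hc.continuousOn
  exact ⟨|C| + 1, by positivity, fun K hK =>
    (hC K (by simpa using hK)).trans (by linarith [le_abs_self C])⟩

lemma det_sub_lower {r : ℝ} (hr : r < 1) : ∃ c : ℝ, 0 < c ∧ ∀ K : Op N, ‖K‖ ≤ r →
    c ≤ |(ContinuousLinearMap.id ℝ (Euc N) - K).det| := by
  have := FiniteDimensional.proper_real (Op N)
  have hc : Continuous fun K : Op N => |(ContinuousLinearMap.id ℝ (Euc N) - K).det| :=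
    (ContinuousLinearMap.continuous_det.comp (by fun_prop)).abs
  obtain ⟨c, hc0, hC⟩ := (isCompact_closedBall (0 : Op N) r).exists_forall_le' hc.continuousOn
    (a := 0) fun K hK => abs_pos.2 (det_ne_of_inj _ fun x hx => by
      have h1 : ‖K‖ ≤ r := by simpa using hK
      have h2 : x = K x := sub_eq_zero.1 hx
      have h3 : ‖x‖ ≤ r * ‖x‖ := by
        conv_lhs => rw [h2]
        exact K.le_of_opNorm_le h1 x
      by_contra h4
      have := norm_pos_iff.2 h4
      nlinarith)
  exact ⟨c, hc0, fun K hK => hC K (by simpa using hK)⟩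

end linalg

/-! ### the operator `E = U + U ∘ rev + (1 - Pv)` -/

variable {n N : ℕ} {a : ℝ} {S : Set (Euc N)} {G : Geo n N (-(a ^ 2)) S} {q : TT N}

/-- `U + U ∘ rev`, extended by the identity -/
def E (G : Geo n N (-(a ^ 2)) S) (q : TT N) : Op N :=
  U G q + U G (rev q) + (ContinuousLinearMap.id ℝ (Euc N) - Pv G q)

lemma E_apply (x : Euc N) : E G q x = U G q x + U G (rev q) x + (x - Pv G q x) := rfl

lemma rev_mem' (h : IsU G (U G)) (hq : q ∈ US G) (x : Euc N) : U G (rev q) x ∈ Vp G q := by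
  rw [← Vp_rev]; exact h.mem (rev_US hq) x

lemma inner_nonneg (h : IsU G (U G)) (ha : 0 < a) (hq : q ∈ US G) (x : Euc N) : 0 ≤ ⟪U G q x, x⟫ := by
  have h1 := h.lower q hq _ (Pv_mem hq.1 hq.2 x)
  rw [h.comp_Pv q hq, h.symm q hq, h.comp_Pv q hq, ← h.symm q hq] at h1
  exact le_trans (by positivity) h1

lemma det_E_pos (h : IsU G (U G)) (ha : 0 < a) (hq : q ∈ US G) : 0 < (E G q).det := by
  refine det_pos _ fun x hx => ?_
  have h1 := h.ext_lower hq 0 x
  have h2 := inner_nonneg h ha (rev_US hq) x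
  have h3 := inner_nonneg h ha hq x
  have h4 : 0 < a * ‖x‖ ^ 2 := mul_pos ha (pow_pos (norm_pos_iff.2 hx) 2)
  have h5 : 0 ≤ ⟪x - Pv G q x, x⟫ := by
    have h6 : ⟪x - Pv G q x, Pv G q x⟫ = 0 := by
      rw [← inner_Pv hq.1, map_sub, Pv_Pv hq, sub_self, inner_zero_left]
    have h7 := real_inner_self_nonneg (x := x - Pv G q x)
    rwa [inner_sub_right, h6, sub_zero] at h7
  simp only [hat_zero, _root_.add_apply, _root_.smul_apply,
    _root_.sub_apply, ContinuousLinearMap.id_apply, inner_add_left, inner_smul_left,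
    conj_trivial] at h1
  rw [E_apply, inner_add_left, inner_add_left]
  rcases h5.eq_or_lt with h6 | h6
  · rw [← h6] at h1 ⊢; linarith
  · linarith

lemma continuousOn_E (h : IsU G (U G)) : ContinuousOn (E G) (US G) := by
  have hr : Continuous (rev : TT N → TT N) := continuous_fst.prodMk continuous_snd.neg
  exact (h.cont.add (h.cont.comp hr.continuousOn fun q hq => rev_US hq)).add
    (continuous_const.sub (contDiff_Pv (G := G)).continuous).continuousOn

lemma continuousOn_det_E (h : IsU G (U G)) : ContinuousOn (fun q => (E G q).det) (US G) :=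
  ContinuousLinearMap.continuous_det.comp_continuousOn (continuousOn_E h)

lemma continuous_tau (h : IsU G (U G)) (hq : q ∈ US G) : Continuous fun s => tau G (fl G (q, s)) :=
  continuous_tr.comp (h.cont.comp_continuous (continuous_fl_t hq.1) fun s => fl_US hq s)

lemma hasDerivAt_St (h : IsU G (U G)) (hq : q ∈ US G) (t : ℝ) :
    HasDerivAt (fun t => St G t q) (tau G (fl G (q, t))) t :=
  ((continuous_tau h hq).integral_hasStrictDerivAt 0 t).hasDerivAt

lemma hat_E (hq : q ∈ US G) (t : ℝ) : hat G (E G) q t =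
    hat G (U G) q t + hat G (U G) (rev q) (-t) + (ContinuousLinearMap.id ℝ (Euc N) - Pv G q) := by
  have e : E G = fun z => (U G z + U G (rev z)) + (ContinuousLinearMap.id ℝ (Euc N) - Pv G z) := rfl
  rw [e, hat_add', hat_add', hat_sub, hat_id hq.1, hat_Pv hq.1, hat_rev _ hq.1, neg_neg]

lemma hasDerivAt_hat_E (h : IsU G (U G)) (hq : q ∈ US G) (t : ℝ) :
    HasDerivAt (hat G (E G) q)
      ((-hat G (U G) q t) ∘L hat G (E G) q t + hat G (E G) q t ∘L hat G (U G) (rev q) (-t)) t := by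
  have e : hat G (E G) q = fun t => hat G (U G) q t + hat G (U G) (rev q) (-t) +
      (ContinuousLinearMap.id ℝ (Euc N) - Pv G q) := funext fun t => hat_E hq t
  have h1 := (h.ric _ (rev_US hq) (-t)).scomp t (hasDerivAt_neg t)
  have h2 := ((h.ric q hq t).add h1).add_const (ContinuousLinearMap.id ℝ (Euc N) - Pv G q)
  rw [e]
  refine HasDerivAt.congr_deriv h2 ?_
  ext1 x
  have h3 : Pv G q (hat G (U G) (rev q) (-t) x) = hat G (U G) (rev q) (-t) x :=
    Pv_of_mem hq.1 (by rw [← Vp_rev]; exact h.hat_mem (rev_US hq) _ x)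
  simp only [Rh_rev hq.1, neg_neg, _root_.add_apply, _root_.sub_apply,
    _root_.neg_apply, ContinuousLinearMap.comp_apply,
    ContinuousLinearMap.id_apply, map_add, map_sub, h.hat_Pv hq, h3, neg_smul, one_smul]
  abel

lemma hasDerivAt_ldet (h : IsU G (U G)) (ha : 0 < a) (hq : q ∈ US G) (t : ℝ) :
    HasDerivAt (fun t => ldet G (fl G (q, t)))
      (-tau G (fl G (q, t)) + tau G (fl G (rev q, -t))) t := by
  have e : (fun t => ldet G (fl G (q, t))) = fun t => Real.log (hat G (E G) q t).det :=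
    funext fun t => by rw [det_hat _ hq.1]; rfl
  rw [e]
  refine (hasDerivAt_log_det (hasDerivAt_hat_E h hq t) ?_).congr_deriv ?_
  · rw [det_hat _ hq.1]; exact (det_E_pos h ha (fl_US hq t)).ne'
  · simp only [tr, ContinuousLinearMap.toLinearMap_neg, map_neg, trace_hat _ hq.1, trace_hat _ (rev_US hq).1]
    rfl

/-! ### the polar Jacobi tensor -/

lemma Ju_zero (x : Euc N) : Ju G q 0 x = Pv G q x := by rw [Ju, Jac_apply, Wj_zero]

lemma At_E (h : IsU G (U G)) (hq : q ∈ US G) (t : ℝ) (x : Euc N) :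
    At G q 0 t (U G q x + U G (rev q) x) = Ju G q t x - Js G q t x := by
  have m0 := (mem_Vp.1 (Pv_mem hq.1 hq.2 x)).1
  have m1 := (mem_Vp.1 (h.mem hq x)).1
  have m2 : (-U G (rev q)) x ∈ G.T q.1 := (G.T q.1).neg_mem (mem_Vp.1 (rev_mem' h hq x)).1
  refine ((isJac_At hq.1 0 _).unique (contDiff_Rh hq.1).continuous
    ((isJac_Wj hq.1 m0 m1).sub (isJac_Wj hq.1 m0 m2)) (t₀ := 0) ?_ ?_ t).1
  · rw [At_self hq.1, Wj_zero, Wj_zero, sub_self]
  · rw [At'_self hq.1, Wj'_zero hq.1 m0 m1, Wj'_zero hq.1 m0 m2,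
      (P_eq_self G hq.1.1).1 ((G.T q.1).add_mem m1 (mem_Vp.1 (rev_mem' h hq x)).1)]
    simp

lemma A_comp_E (h : IsU G (U G)) (hq : q ∈ US G) (t : ℝ) :
    (At G q 0 t ∘L Pv G q + (ContinuousLinearMap.id ℝ (Euc N) - Pv G q)) ∘L E G q =
      Ju G q t + (ContinuousLinearMap.id ℝ (Euc N) - Pv G q) - Js G q t := by
  ext1 x
  have h1 : Pv G q (E G q x) = U G q x + U G (rev q) x := by
    rw [E_apply, map_add, map_add, map_sub, Pv_Pv hq, sub_self, add_zero, h.Pv_comp hq,
      Pv_of_mem hq.1 (rev_mem' h hq x)]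
  simp only [_root_.add_apply, _root_.sub_apply,
    ContinuousLinearMap.comp_apply, ContinuousLinearMap.id_apply, h1, At_E h hq]
  rw [E_apply]
  abel

/-- `Dn * det E = exp St * |det (1 - K)|` with `‖K‖ ≤ exp (-2 a t)` -/
lemma exists_K (hJ : JuS) (H : Hyp n N a S) (h : IsU G (U G)) (hq : q ∈ US G) {t : ℝ} (ht : 0 ≤ t) :
    ∃ K : Op N, ‖K‖ ≤ Real.exp (-(2 * a * t)) ∧ Dn G q 0 t * (E G q).det =
      Real.exp (St G t q) * |(ContinuousLinearMap.id ℝ (Euc N) - K).det| := by
  obtain ⟨b, -, hb⟩ := hJ n N a S G H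
  obtain ⟨-, -, -, j3, j4, j5, j6⟩ := hb q hq
  obtain ⟨-, -, -, -, k4, k5, -⟩ := hb _ (rev_US hq)
  set M := Ju G q t + (ContinuousLinearMap.id ℝ (Euc N) - Pv G q) with hM
  have hd : M.det ≠ 0 := by rw [j6]; exact (Real.exp_pos _).ne'
  set K : Op N := ((M.toContinuousLinearEquivOfDetNeZero hd).symm : Op N) ∘L Js G q t with hK
  have hMK : ∀ x, M (K x) = Js G q t x := fun x =>
    (M.toContinuousLinearEquivOfDetNeZero hd).apply_symm_apply _
  refine ⟨K, ContinuousLinearMap.opNorm_le_bound _ (Real.exp_pos _).le fun x => ?_, ?_⟩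
  · have h1 : Ju G q t (K x) + (K x - Pv G q (K x)) = Js G q t x := hMK x
    have h2 : Js G q t x ∈ Vp G q := by rw [j3, ← Vp_rev]; exact k4 _ _
    have h3 : K x - Pv G q (K x) ∈ Vp G q := by
      rw [eq_sub_of_add_eq' h1]; exact (Vp G q).sub_mem h2 (j4 _ _)
    have h4 : K x - Pv G q (K x) = 0 := by
      rw [← Pv_of_mem hq.1 h3, map_sub, Pv_Pv hq, sub_self]
    have h5 := (j5 0 t (K x) ht).1
    have h6 := (k5 (-t) 0 x (by linarith)).1
    rw [h4, add_zero] at h1
    rw [Ju_zero, ← sub_eq_zero.1 h4, h1, sub_zero] at h5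
    rw [Ju_zero, ← j3, zero_sub, neg_neg] at h6
    have h7 := norm_Pv_le (rev_US hq) x
    have h8 : Real.exp (-(2 * a * t)) * (Real.exp (a * t) * Real.exp (a * t)) = 1 := by
      rw [← Real.exp_add, ← Real.exp_add, ← Real.exp_zero]; congr 1; ring
    have h9 : Real.exp (a * t) * (Real.exp (a * t) * ‖K x‖) ≤ ‖x‖ :=
      (mul_le_mul_of_nonneg_left h5 (Real.exp_pos _).le).trans (h6.trans h7)
    calc ‖K x‖ = Real.exp (-(2 * a * t)) * (Real.exp (a * t) * (Real.exp (a * t) * ‖K x‖)) := by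
          rw [← mul_assoc (Real.exp (a * t)), ← mul_assoc, h8, one_mul]
      _ ≤ _ := mul_le_mul_of_nonneg_left h9 (Real.exp_pos _).le
  · have h1 : M - Js G q t = M ∘L (ContinuousLinearMap.id ℝ (Euc N) - K) := by
      ext1 x
      simp only [_root_.sub_apply, ContinuousLinearMap.comp_apply,
        ContinuousLinearMap.id_apply, map_sub, hMK]
    have h2 := congrArg (fun A : Op N => |A.det|) ((A_comp_E h hq t).trans h1)
    simp only [det_comp, abs_mul] at h2
    rwa [j6, abs_of_pos (det_E_pos h H.a_pos hq), abs_of_pos (Real.exp_pos _)] at h2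

end UDn

theorem ldetS (hU : UExS) : LdetS := by
  intro n N a S G H
  have h := hU n N a S G H
  refine ⟨(UDn.continuousOn_det_E h).log fun q hq => (UDn.det_E_pos h H.a_pos hq).ne',
    fun q hq => UDn.det_E_pos h H.a_pos hq, fun q hq t => ?_⟩
  have hd : ∀ t, HasDerivAt (fun t => ldet G (fl G (q, t)) + St G (-t) (rev q) + St G t q) 0 t := by
    intro t
    have h1 := (UDn.hasDerivAt_St h (rev_US hq) (-t)).scomp t (hasDerivAt_neg t)
    refine (((UDn.hasDerivAt_ldet h H.a_pos hq t).add h1).add (UDn.hasDerivAt_St h hq t)).congr_deriv ?_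
    simp
  have h2 := is_const_of_deriv_eq_zero (fun t => (hd t).differentiableAt) (fun t => (hd t).deriv) t 0
  simp only [neg_zero, St_def, intervalIntegral.integral_same, add_zero, fl_zero] at h2
  simp only [St_def]
  linarith

theorem dnS (hU : UExS) (hJ : JuS) : DnS := by
  intro n N a S G H
  have h := hU n N a S G H
  have ha := H.a_pos
  obtain ⟨C1, hC1, h1⟩ := UDn.det_sub_bound (N := N)
  obtain ⟨c1, hc1, h2⟩ := UDn.det_sub_lower (N := N) (r := Real.exp (-(2 * a)))
    (Real.exp_lt_one_iff.2 (by linarith))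
  obtain ⟨c2, hc2, h3⟩ := (isCompact_US G H.cpt).exists_forall_le' (UDn.continuousOn_det_E h) (a := 0)
    fun q hq => UDn.det_E_pos h ha hq
  obtain ⟨C2, h4⟩ := (isCompact_US G H.cpt).exists_bound_of_continuousOn (UDn.continuousOn_det_E h)
  have p1 : 0 < C1 / c2 := div_pos hC1 hc2
  have p2 : 0 ≤ |C2| / c1 := div_nonneg (abs_nonneg _) hc1.le
  refine ⟨C1 / c2 + |C2| / c1, by linarith, fun q hq => ⟨fun t ht => ?_, fun t ht => ?_⟩⟩
  · obtain ⟨K, hK, e⟩ := UDn.exists_K hJ H h hq ht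
    have h5 := h1 K (hK.trans (Real.exp_le_one_iff.2 (by nlinarith)))
    have h6 : Dn G q 0 t * c2 ≤ Real.exp (St G t q) * C1 :=
      (mul_le_mul_of_nonneg_left (h3 q hq) (Dn_nonneg _ _ _)).trans
        (e.le.trans (mul_le_mul_of_nonneg_left h5 (Real.exp_pos _).le))
    have h7 : Dn G q 0 t ≤ C1 / c2 * Real.exp (St G t q) := by
      rw [div_mul_eq_mul_div, le_div_iff₀ hc2]; linarith
    exact h7.trans (mul_le_mul_of_nonneg_right (by linarith) (Real.exp_pos _).le)
  · obtain ⟨K, hK, e⟩ := UDn.exists_K hJ H h hq (zero_le_one.trans ht)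
    have h5 := h2 K (hK.trans (Real.exp_le_exp.2 (by nlinarith)))
    have h6 : (UDn.E G q).det ≤ |C2| := (le_abs_self _).trans ((h4 q hq).trans (le_abs_self _))
    have h7 : Real.exp (St G t q) * c1 ≤ Dn G q 0 t * |C2| :=
      (mul_le_mul_of_nonneg_left h5 (Real.exp_pos _).le).trans
        (e.ge.trans (mul_le_mul_of_nonneg_left h6 (Dn_nonneg _ _ _)))
    have h8 : Real.exp (St G t q) ≤ |C2| / c1 * Dn G q 0 t := by
      rw [div_mul_eq_mul_div, le_div_iff₀ hc1]; linarith
    exact h8.trans (mul_le_mul_of_nonneg_right (by linarith) (Dn_nonneg _ _ _))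

end Crest.Agent.N221
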