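import Crest.Agent.N221.Base

/-! Row 221: existence of the unstable Riccati field by a contraction argument (helper36). -/

set_option autoImplicit false

open MeasureTheory Set Filter Topology
open scoped ContDiff RealInnerProductSpace ENNReal
open Crest.GeometryTopology.Submanifold
open Crest.Agent.R241.DDefs Crest.Agent.R241.D2
open Crest.Agent.R208.J Crest.Agent.R208.L

noncomputable section

namespace Crest.Agent.N221

namespace UEx

section Iw

variable {F : Type} [NormedAddCommGroup F] [NormedSpace ℝ F] {b M : ℝ} {f : ℝ → F}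

/-- exponentially weighted average over the past -/
def Iw (b : ℝ) (f : ℝ → F) : F := ∫ u in Iic (0 : ℝ), Real.exp (b * u) • f u

lemma bd_w (hM : ∀ u, ‖f u‖ ≤ M) (u : ℝ) : ‖Real.exp (b * u) • f u‖ ≤ Real.exp (b * u) * M := by
  rw [norm_smul, Real.norm_of_nonneg (Real.exp_pos _).le]
  exact mul_le_mul_of_nonneg_left (hM u) (Real.exp_pos _).le

lemma int_w (hb : 0 < b) (hf : Continuous f) (hM : ∀ u, ‖f u‖ ≤ M) (t : ℝ) :
    IntegrableOn (fun u => Real.exp (b * u) • f u) (Iic t) :=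
  ((integrableOn_exp_mul_Iic hb t).mul_const M).mono'
    (by fun_prop : Continuous fun u => Real.exp (b * u) • f u).aestronglyMeasurable
    (Eventually.of_forall (bd_w hM))

lemma norm_Iw (hb : 0 < b) (hM : ∀ u, ‖f u‖ ≤ M) : ‖Iw b f‖ ≤ M / b := by
  refine (norm_integral_le_of_norm_le ((integrableOn_exp_mul_Iic hb 0).mul_const M)
    (Eventually.of_forall (bd_w hM))).trans_eq ?_
  rw [integral_mul_const, integral_exp_mul_Iic hb, mul_zero, Real.exp_zero]
  ring

lemma Iw_shift (t : ℝ) : Iw b (fun u => f (t + u)) =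
    Real.exp (-b * t) • ∫ u in Iic t, Real.exp (b * u) • f u := by
  have h := (measurePreserving_add_left volume t).setIntegral_preimage_emb
    (measurableEmbedding_addLeft t) (fun u => Real.exp (b * u) • f u) (Iic t)
  rw [preimage_const_add_Iic, sub_self] at h
  rw [← h, ← integral_smul, Iw]
  refine integral_congr_ae (Eventually.of_forall fun u => ?_)
  simp only [smul_smul, ← Real.exp_add]
  congr 2
  ring

lemma hasDerivAt_Iw [CompleteSpace F] (hb : 0 < b) (hf : Continuous f) (hM : ∀ u, ‖f u‖ ≤ M)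
    (t : ℝ) : HasDerivAt (fun t => Iw b fun u => f (t + u))
      (f t - b • Iw b fun u => f (t + u)) t := by
  have hc : Continuous fun u => Real.exp (b * u) • f u := by fun_prop
  have h1 : HasDerivAt (fun t => ∫ u in Iic t, Real.exp (b * u) • f u)
      (Real.exp (b * t) • f t) t := by
    refine ((intervalIntegral.integral_hasDerivAt_right (hc.intervalIntegrable 0 t)
      (hc.stronglyMeasurableAtFilter _ _) hc.continuousAt).add_const
      (∫ u in Iic (0 : ℝ), Real.exp (b * u) • f u)).congr_of_eventuallyEq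
      (Eventually.of_forall fun s => ?_)
    simp only
    rw [← intervalIntegral.integral_Iic_sub_Iic (int_w hb hf hM 0) (int_w hb hf hM s),
      sub_add_cancel]
  have h2 : HasDerivAt (fun t => Real.exp (-b * t)) (Real.exp (-b * t) * (-b * 1)) t :=
    ((hasDerivAt_id t).const_mul (-b)).exp
  simp only [Iw_shift]
  refine HasDerivAt.congr_deriv (h2.smul h1) (Eq.symm ?_)
  rw [smul_smul, smul_smul, ← Real.exp_add, show -b * t + b * t = 0 by ring, Real.exp_zero, one_smul,
    sub_eq_add_neg, ← neg_smul]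
  congr 2
  ring

end Iw

variable {n N : ℕ} {κ : ℝ} {S : Set (Euc N)} {G : Geo n N κ S} {q : TT N} {b M M' : ℝ}
  {W W' : TT N → Op N}

lemma norm_le_of_symm {T : Op N} (hs : ∀ x y, ⟪T x, y⟫ = ⟪x, T y⟫) (hM : 0 ≤ M)
    (h : ∀ x, |⟪T x, x⟫| ≤ M * ‖x‖ ^ 2) : ‖T‖ ≤ M := by
  rw [T.norm_eq_iSup_rayleighQuotient hs]
  refine ciSup_le fun x => ?_
  rw [ContinuousLinearMap.rayleighQuotient, abs_div, abs_of_nonneg (sq_nonneg ‖x‖)]
  exact div_le_of_le_mul₀ (sq_nonneg _) hM (h x)

/-- continuous symmetric fields that live on `Vp` and are bounded by `M` -/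
structure Gd (G : Geo n N κ S) (M : ℝ) (W : TT N → Op N) : Prop where
  cont : ContinuousOn W (US G)
  symm : ∀ q ∈ US G, ∀ x y, ⟪W q x, y⟫ = ⟪x, W q y⟫
  comp : ∀ q ∈ US G, ∀ x, W q (Pv G q x) = W q x
  bd : ∀ q ∈ US G, ‖W q‖ ≤ M

lemma contOn_hat (h : ContinuousOn W (US G)) :
    ContinuousOn (fun p : TT N × ℝ => hat G W p.1 p.2) (US G ×ˢ univ) := by
  have h1 : ContinuousOn (fun p : TT N × ℝ => W (fl G p)) (US G ×ˢ univ) :=
    h.comp ((continuousOn_fl G).mono (prod_mono (fun _ h => h.1) le_rfl))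
      fun p hp => fl_US hp.1 p.2
  exact ContinuousOn.clm_comp
    (fun p hp => (contDiffAt_PTi hp.1.1 p.2).continuousAt.continuousWithinAt)
    (h1.clm_comp fun p hp => (contDiffAt_PT hp.1.1 p.2).continuousAt.continuousWithinAt)

lemma cont_hat (h : ContinuousOn W (US G)) (hq : q ∈ US G) : Continuous (hat G W q) :=
  (contOn_hat h).comp_continuous (f := fun t => (q, t)) (by fun_prop) fun _ => ⟨hq, trivial⟩

lemma hat_bd (h : ∀ q ∈ US G, ‖W q‖ ≤ M) (hq : q ∈ US G) (t : ℝ) : ‖hat G W q t‖ ≤ M :=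
  (norm_hat W hq.1 t).trans (h _ (fl_US hq t))

lemma Gd.hat_symm (h : Gd G M W) (hq : q ∈ US G) (t : ℝ) (x y : Euc N) :
    ⟪hat G W q t x, y⟫ = ⟪x, hat G W q t y⟫ := by
  rw [inner_hat, h.symm _ (fl_US hq t), real_inner_comm, ← inner_hat, real_inner_comm]

lemma Gd.hat_Pv (h : Gd G M W) (hq : q ∈ US G) (t : ℝ) (x : Euc N) :
    hat G W q t (Pv G q x) = hat G W q t x := by
  rw [hat_apply, hat_apply, ← Pv_PT hq.1, h.comp _ (fl_US hq t)]

lemma Gd.Pv_hat (h : Gd G M W) (hq : q ∈ US G) (t : ℝ) (x : Euc N) :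
    Pv G q (hat G W q t x) = hat G W q t x :=
  ext_inner_right ℝ fun y => by rw [inner_Pv hq.1, h.hat_symm hq, h.hat_Pv hq, h.hat_symm hq]

/-- the average of `W` over the past orbit -/
def Av (G : Geo n N κ S) (b : ℝ) (W : TT N → Op N) (z : TT N) : Op N := Iw b (hat G W z)

lemma contOn_Av (hb : 0 < b) (h : ContinuousOn W (US G)) (hM : ∀ q ∈ US G, ‖W q‖ ≤ M) :
    ContinuousOn (Av G b W) (US G) := by
  refine continuousOn_of_dominated (bound := fun u => Real.exp (b * u) * M)
    (fun z hz => (int_w hb (cont_hat h hz) (hat_bd hM hz) 0).aestronglyMeasurable)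
    (fun z hz => Eventually.of_forall (bd_w (hat_bd hM hz)))
    ((integrableOn_exp_mul_Iic hb 0).mul_const M) (Eventually.of_forall fun u => ?_)
  exact ((contOn_hat h).comp (f := fun z => (z, u)) (by fun_prop)
    fun _ hz => ⟨hz, trivial⟩).const_smul (Real.exp (b * u))

lemma Gd.av (h : Gd G M W) (hb : 0 < b) : Gd G (M / b) (Av G b W) := by
  have hi := fun q hq => int_w hb (cont_hat h.cont (q := q) hq) (hat_bd h.bd hq) 0
  refine ⟨contOn_Av hb h.cont h.bd, fun q hq x y => ?_, fun q hq x => ?_,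
    fun q hq => norm_Iw hb (hat_bd h.bd hq)⟩
  · rw [Av, Iw, ContinuousLinearMap.integral_apply (hi q hq),
      ContinuousLinearMap.integral_apply (hi q hq), real_inner_comm,
      ← integral_inner ((hi q hq).apply_continuousLinearMap x),
      ← integral_inner ((hi q hq).apply_continuousLinearMap y)]
    refine integral_congr_ae (Eventually.of_forall fun u => ?_)
    simp only [ContinuousLinearMap.smul_apply, inner_smul_right]
    rw [real_inner_comm, h.hat_symm hq]
  · rw [Av, Iw, ContinuousLinearMap.integral_apply (hi q hq),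
      ContinuousLinearMap.integral_apply (hi q hq)]
    simp only [ContinuousLinearMap.smul_apply, h.hat_Pv hq]

lemma norm_Av_sub (h : Gd G M W) (h' : Gd G M W') (hb : 0 < b)
    (hd : ∀ q ∈ US G, ‖W q - W' q‖ ≤ M') (hq : q ∈ US G) : ‖Av G b W q - Av G b W' q‖ ≤ M' / b := by
  rw [Av, Av, Iw, Iw, ← integral_sub (int_w hb (cont_hat h.cont hq) (hat_bd h.bd hq) 0)
    (int_w hb (cont_hat h'.cont hq) (hat_bd h'.bd hq) 0)]
  simp only [← smul_sub, ← hat_sub]
  exact norm_Iw hb (hat_bd hd hq)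

lemma hat_Av (h : Gd G M W) (hb : 0 < b) (hq : q ∈ US G) (t : ℝ) :
    hat G (Av G b W) q t = Iw b fun u => hat G W q (t + u) := by
  have hi := int_w hb (cont_hat h.cont (fl_US hq t)) (hat_bd h.bd (fl_US hq t)) 0
  have hi' := int_w hb (f := fun u => hat G W q (t + u))
    ((cont_hat h.cont hq).comp (by fun_prop)) (fun u => hat_bd h.bd hq _) 0
  ext1 x
  rw [hat_apply, Av, Iw, Iw, ContinuousLinearMap.integral_apply hi,
    ContinuousLinearMap.integral_apply hi',
    ← (PTi G q t).integral_comp_comm (hi.apply_continuousLinearMap _)]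
  simp only [ContinuousLinearMap.smul_apply, map_smul, hat_add W hq.1,
    ContinuousLinearMap.comp_apply]

variable {a c : ℝ} {G : Geo n N (-(a ^ 2)) S}

/-- the forcing term -/
def HV (G : Geo n N κ S) (c : ℝ) (W : TT N → Op N) (z : TT N) : Op N :=
  (-(c ^ 2)) • Pv G z - Rm G z - W z ∘L W z

lemma Gd.hv (h : Gd G M W) (hac : a ^ 2 ≤ c ^ 2) (hR : ∀ q ∈ US G, ‖Rm G q‖ ≤ c ^ 2) :
    Gd G (c ^ 2 - a ^ 2 + M ^ 2) (HV G c W) := by
  have hs : ∀ q ∈ US G, ∀ x y, ⟪((-(c ^ 2)) • Pv G q - Rm G q) x, y⟫ =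
      ⟪x, ((-(c ^ 2)) • Pv G q - Rm G q) y⟫ := fun q hq x y => by
    simp only [ContinuousLinearMap.sub_apply, ContinuousLinearMap.smul_apply, inner_sub_left,
      inner_sub_right, real_inner_smul_left, real_inner_smul_right, inner_Pv hq.1, inner_Rm hq.1]
  refine ⟨?_, fun q hq x y => ?_, fun q hq x => ?_, fun q hq => ?_⟩
  · have h1 : Continuous fun z => (-(c ^ 2)) • Pv G z - Rm G z :=
      ((contDiff_Pv (G := G)).continuous.const_smul (-(c ^ 2))).sub (contDiff_Rm G).continuous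
    exact h1.continuousOn.sub (h.cont.clm_comp h.cont)
  · rw [HV, ContinuousLinearMap.sub_apply, ContinuousLinearMap.sub_apply _ (W q ∘L W q),
      inner_sub_left, inner_sub_right, hs q hq]
    simp only [ContinuousLinearMap.comp_apply, h.symm q hq]
  · simp only [HV, ContinuousLinearMap.sub_apply, ContinuousLinearMap.smul_apply,
      ContinuousLinearMap.comp_apply, Pv_Pv hq, Rm_Pv hq.1, h.comp q hq]
  · refine (norm_sub_le _ _).trans (add_le_add (norm_le_of_symm (hs q hq) (by linarith)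
      fun x => ?_) ?_)
    · have e : ⟪((-(c ^ 2)) • Pv G q - Rm G q) x, x⟫ =
          -(c ^ 2) * ‖Pv G q x‖ ^ 2 - ⟪Rm G q (Pv G q x), Pv G q x⟫ := by
        rw [Rm_Pv hq.1, inner_Rm hq.1 x (Pv G q x), Rm_Pv hq.1, ← inner_Rm hq.1,
          ← real_inner_self_eq_norm_sq, inner_Pv hq.1, Pv_Pv hq, ← inner_Pv hq.1]
        simp only [ContinuousLinearMap.sub_apply, ContinuousLinearMap.smul_apply, inner_sub_left,
          real_inner_smul_left]
      have h1 := inner_Rm_le hq (Pv_mem hq.1 hq.2 x)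
      have h2 : -(c ^ 2 * ‖Pv G q x‖ ^ 2) ≤ ⟪Rm G q (Pv G q x), Pv G q x⟫ := by
        refine neg_le_of_abs_le ((abs_real_inner_le_norm _ _).trans ?_)
        rw [sq ‖_‖, ← mul_assoc]
        exact mul_le_mul_of_nonneg_right ((Rm G q).le_of_opNorm_le (hR q hq) _) (norm_nonneg _)
      have h3 : (c ^ 2 - a ^ 2) * ‖Pv G q x‖ ^ 2 ≤ (c ^ 2 - a ^ 2) * ‖x‖ ^ 2 :=
        mul_le_mul_of_nonneg_left (pow_le_pow_left₀ (norm_nonneg _) (norm_Pv_le hq x) 2)
          (by linarith)
      have h4 : 0 ≤ (c ^ 2 - a ^ 2) * ‖x‖ ^ 2 := mul_nonneg (by linarith) (sq_nonneg _)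
      rw [e, abs_le]
      constructor <;> linarith
    · refine (ContinuousLinearMap.opNorm_comp_le _ _).trans ?_
      rw [← sq]
      exact pow_le_pow_left₀ (norm_nonneg _) (h.bd q hq) 2

lemma norm_HV_sub (h : Gd G M W) (h' : Gd G M W') (hq : q ∈ US G) :
    ‖HV G c W q - HV G c W' q‖ ≤ 2 * M * ‖W q - W' q‖ := by
  have e : HV G c W q - HV G c W' q = -(W q ∘L (W q - W' q) + (W q - W' q) ∘L W' q) := by
    ext1 x
    simp [HV]
  rw [e, norm_neg]
  refine (norm_add_le _ _).trans ?_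
  have h1 := ContinuousLinearMap.opNorm_comp_le (W q) (W q - W' q)
  have h2 := ContinuousLinearMap.opNorm_comp_le (W q - W' q) (W' q)
  have h3 := mul_le_mul_of_nonneg_right (h.bd q hq) (norm_nonneg (W q - W' q))
  have h4 := mul_le_mul_of_nonneg_left (h'.bd q hq) (norm_nonneg (W q - W' q))
  linarith

open Classical in
/-- extension by zero -/
def ev (V : C(US G, Op N)) (z : TT N) : Op N := if h : z ∈ US G then V ⟨z, h⟩ else 0

lemma ev_eq (V : C(US G, Op N)) (hq : q ∈ US G) : ev V q = V ⟨q, hq⟩ := dif_pos hq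

lemma contOn_ev (V : C(US G, Op N)) : ContinuousOn (ev V) (US G) := by
  rw [continuousOn_iff_continuous_domRestrict]
  exact V.continuous.congr fun z => (ev_eq V z.2).symm

theorem exists_fixed (hS : IsCompact S) (ha : 0 < a) (hac : a ≤ c)
    (hR : ∀ q ∈ US G, ‖Rm G q‖ ≤ c ^ 2) :
    ∃ W, Gd G (c - a) W ∧ ∀ q ∈ US G, W q = Av G (2 * c) (HV G c W) q := by
  classical
  have : CompactSpace (US G) := isCompact_iff_compactSpace.1 (isCompact_US G hS)
  have hc : 0 < 2 * c := by linarith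
  have h2 : a ^ 2 ≤ c ^ 2 := pow_le_pow_left₀ ha.le hac 2
  set X : Set C(US G, Op N) := {V | Gd G (c - a) (ev V)} with hX
  have hcl : IsClosed X := by
    have : X = ⋂ z : US G, ((⋂ x, ⋂ y, {V : C(US G, Op N) | ⟪V z x, y⟫ = ⟪x, V z y⟫}) ∩
        ⋂ x, {V : C(US G, Op N) | V z (Pv G z x) = V z x}) ∩ {V | ‖V z‖ ≤ c - a} := by
      ext V
      simp only [hX, mem_setOf_eq, mem_iInter, mem_inter_iff]
      refine ⟨fun h z => ?_, fun h => ⟨contOn_ev V, fun q hq => ?_, fun q hq => ?_, fun q hq => ?_⟩⟩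
      · rw [← ev_eq V z.2]
        exact ⟨⟨h.symm z z.2, h.comp z z.2⟩, h.bd z z.2⟩
      all_goals rw [ev_eq V hq]
      exacts [(h ⟨q, hq⟩).1.1, (h ⟨q, hq⟩).1.2, (h ⟨q, hq⟩).2]
    rw [this]
    exact isClosed_iInter fun z => ((isClosed_iInter fun x => isClosed_iInter fun y =>
      isClosed_eq (by fun_prop) (by fun_prop)).inter (isClosed_iInter fun x =>
      isClosed_eq (by fun_prop) (by fun_prop))).inter (isClosed_le (by fun_prop) continuous_const)
  have hg : ∀ V ∈ X, Gd G (c - a) (Av G (2 * c) (HV G c (ev V))) := fun V hV => by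
    have := (Gd.hv hV h2 hR).av hc
    rwa [show (c ^ 2 - a ^ 2 + (c - a) ^ 2) / (2 * c) = c - a by
      rw [div_eq_iff hc.ne']; ring] at this
  let F : C(US G, Op N) → C(US G, Op N) := fun V =>
    if h : V ∈ X then ⟨fun z => Av G (2 * c) (HV G c (ev V)) z,
      (hg V h).cont.comp_continuous continuous_subtype_val fun z => z.2⟩ else 0
  have hF : ∀ V ∈ X, ∀ q ∈ US G, ev (F V) q = Av G (2 * c) (HV G c (ev V)) q := fun V hV q hq => by
    rw [ev_eq _ hq]
    simp only [F, dif_pos hV, ContinuousMap.coe_mk]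
  have hmap : MapsTo F X X := fun V hV =>
    ⟨contOn_ev _, fun q hq => hF V hV q hq ▸ (hg V hV).symm q hq,
      fun q hq => hF V hV q hq ▸ (hg V hV).comp q hq, fun q hq => hF V hV q hq ▸ (hg V hV).bd q hq⟩
  have hK : 0 ≤ (c - a) / c := div_nonneg (by linarith) (by linarith)
  have hcon : ContractingWith (NNReal.mk ((c - a) / c) hK) (hmap.restrict F X X) := by
    refine ⟨?_, LipschitzOnWith.mapsToRestrict hmap
      (LipschitzOnWith.of_dist_le_mul fun V hV V' hV' => ?_)⟩
    · rw [← NNReal.coe_lt_coe, NNReal.coe_mk, NNReal.coe_one, div_lt_one (by linarith)]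
      linarith
    · rw [NNReal.coe_mk, ContinuousMap.dist_le (mul_nonneg hK dist_nonneg)]
      intro z
      rw [← ev_eq _ z.2, ← ev_eq _ z.2, hF _ hV _ z.2, hF _ hV' _ z.2, dist_eq_norm]
      refine (norm_Av_sub (Gd.hv hV h2 hR) (Gd.hv hV' h2 hR) hc
        (M' := 2 * (c - a) * dist V V') (fun q hq => (norm_HV_sub hV hV' hq).trans ?_)
        z.2).trans_eq (by field_simp)
      rw [ev_eq _ hq, ev_eq _ hq, ← dist_eq_norm]
      exact mul_le_mul_of_nonneg_left (ContinuousMap.dist_apply_le_dist _) (by linarith)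
  have h0 : (0 : C(US G, Op N)) ∈ X :=
    ⟨contOn_ev _, fun q hq => by simp [ev_eq _ hq], fun q hq => by simp [ev_eq _ hq],
      fun q hq => by simpa [ev_eq _ hq] using hac⟩
  obtain ⟨V, hV, hfix, -⟩ := hcon.exists_fixedPoint' hcl.isComplete hmap h0 (edist_ne_top _ _)
  exact ⟨ev V, hV, fun q hq => by rw [← hF V hV q hq, hfix.eq]⟩

end UEx

open UEx in
theorem uExS : UExS := by
  intro n N a S G h
  refine Classical.epsilon_spec (p := IsU G) ?_
  obtain ⟨C, hC⟩ := (isCompact_US G h.cpt).exists_bound_of_continuousOn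
    (contDiff_Rm G).continuous.continuousOn
  have ha := h.a_pos
  have hC0 := le_abs_self C
  have hC1 := abs_nonneg C
  obtain ⟨c, hac, hR⟩ : ∃ c, a ≤ c ∧ ∀ q ∈ US G, ‖Rm G q‖ ≤ c ^ 2 :=
    ⟨a + 1 + |C|, by linarith, fun q hq => (hC q hq).trans (by nlinarith)⟩
  obtain ⟨W, hW, hfix⟩ := exists_fixed h.cpt ha hac hR
  have hH := hW.hv (pow_le_pow_left₀ ha.le hac 2) hR
  have hc : 0 < 2 * c := by linarith
  refine ⟨fun z => c • Pv G z + W z,
    ((contDiff_Pv (G := G)).continuous.continuousOn.const_smul c).add hW.cont,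
    fun q hq x y => ?_, fun q hq x => ?_, fun q hq w hw => ?_, fun q hq t => ?_⟩
  · simp only [ContinuousLinearMap.add_apply, ContinuousLinearMap.smul_apply, inner_add_left,
      inner_add_right, real_inner_smul_left, real_inner_smul_right, inner_Pv hq.1, hW.symm q hq]
  · simp only [ContinuousLinearMap.add_apply, ContinuousLinearMap.smul_apply, Pv_Pv hq,
      hW.comp q hq]
  · have h1 : -((c - a) * ‖w‖ ^ 2) ≤ ⟪W q w, w⟫ := by
      refine neg_le_of_abs_le ((abs_real_inner_le_norm _ _).trans ?_)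
      rw [sq ‖_‖, ← mul_assoc]
      exact mul_le_mul_of_nonneg_right ((W q).le_of_opNorm_le (hW.bd q hq) _) (norm_nonneg _)
    simp only [ContinuousLinearMap.add_apply, ContinuousLinearMap.smul_apply, inner_add_left,
      real_inner_smul_left, Pv_of_mem hq.1 hw, real_inner_self_eq_norm_sq]
    linarith
  · have e1 : ∀ t, hat G W q t = Iw (2 * c) fun u => hat G (HV G c W) q (t + u) := fun t => by
      rw [← hat_Av hH hc hq, hat, hat, ← hfix _ (fl_US hq t)]
    have e2 : hat G (fun z => c • Pv G z + W z) q = fun t => c • Pv G q + hat G W q t := by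
      funext t
      rw [hat_add', hat_smul, hat_Pv hq.1]
    have e3 : hat G (HV G c W) q t =
        (-(c ^ 2)) • Pv G q - Rh G q t - hat G W q t ∘L hat G W q t := by
      unfold HV
      rw [hat_sub, hat_sub, hat_smul, hat_Pv hq.1, hat_comp _ _ hq.1, Rh_eq_hat]
    have hd := hasDerivAt_Iw hc (cont_hat hH.cont hq) (hat_bd hH.bd hq) t
    simp only [← e1] at hd
    rw [e2]
    refine HasDerivAt.congr_deriv (hd.const_add (c • Pv G q)) ?_
    ext1 x
    simp only [e3, ContinuousLinearMap.add_apply, ContinuousLinearMap.smul_apply,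
      ContinuousLinearMap.sub_apply, ContinuousLinearMap.neg_apply, ContinuousLinearMap.comp_apply,
      map_add, map_smul, Pv_Pv hq, hW.hat_Pv hq, hW.Pv_hat hq]
    module

end Crest.Agent.N221
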