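import Crest.Agent.N221.Base

/-! Row 221: exponential Lipschitz bounds for the flow, Hölder continuity of `U` (helper3). -/

set_option autoImplicit false

open MeasureTheory Set Filter Topology
open scoped ContDiff RealInnerProductSpace ENNReal NNReal
open Crest.GeometryTopology.Submanifold
open Crest.Agent.R241.DDefs Crest.Agent.R241.D2
open Crest.Agent.R208.J Crest.Agent.R208.L

noncomputable section

namespace Crest.Agent.N221

namespace Lip

variable {n N : ℕ} {κ : ℝ} {S : Set (Euc N)} {G : Geo n N κ S} {z w : TT N}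

theorem lip_cpt {E F : Type} [NormedAddCommGroup E] [NormedSpace ℝ E] [NormedAddCommGroup F]
    [NormedSpace ℝ F] {f : E → F} (hf : ContDiff ℝ ∞ f) {K : Set E} (hK : IsCompact K) :
    ∃ L : ℝ≥0, LipschitzOnWith L f K :=
  ((hf.of_le (m := 1) (by simp)).locallyLipschitz.locallyLipschitzOn).exists_lipschitzOnWith_of_compact
    hK

theorem opNorm_PT (hz : z ∈ TS G) (t : ℝ) : ‖PT G z t‖ ≤ 1 :=
  ContinuousLinearMap.opNorm_le_bound _ zero_le_one fun x => by rw [norm_PT hz, one_mul]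

theorem opNorm_PTi (hz : z ∈ TS G) (t : ℝ) : ‖PTi G z t‖ ≤ 1 :=
  ContinuousLinearMap.opNorm_le_bound _ zero_le_one fun x => by rw [norm_PTi hz, one_mul]

theorem opNorm_Pv (hz : z ∈ US G) : ‖Pv G z‖ ≤ 1 :=
  ContinuousLinearMap.opNorm_le_bound _ zero_le_one fun x => by
    rw [one_mul]; exact norm_Pv_le hz x

theorem norm_PTi_sub (z w : TT N) (t : ℝ) : ‖PTi G z t - PTi G w t‖ = ‖PT G z t - PT G w t‖ := by
  rw [PTi, PTi, ← map_sub, LinearIsometryEquiv.norm_map]

theorem dist_rev (z w : TT N) : dist (rev z) (rev w) = dist z w := by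
  simp [rev, Prod.dist_eq]

theorem flow_pos {L : ℝ≥0} (hL : LipschitzOnWith L (Y G) (US G ×ˢ Metric.closedBall 0 1))
    (hz : z ∈ US G) (hw : w ∈ US G) {t : ℝ} (ht : 0 ≤ t) :
    dist (fl G (z, t)) (fl G (w, t)) ≤ Real.exp (L * t) * dist z w ∧
      ‖PT G z t - PT G w t‖ ≤ Real.exp (L * t) * dist z w := by
  have hd : ∀ q ∈ US G, ∀ s, HasDerivAt (fun s => (fl G (q, s), PT G q s))
      (Y G (fl G (q, s), PT G q s)) s := fun q hq s =>
    (hasDerivAt_fl G (complete G hq.1 s)).prodMk (hasDerivAt_PT hq.1 s)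
  have hm : ∀ q ∈ US G, ∀ s, (fl G (q, s), PT G q s) ∈ US G ×ˢ Metric.closedBall (0 : Op N) 1 :=
    fun q hq s => ⟨fl_US hq s, mem_closedBall_zero_iff.2 (opNorm_PT hq.1 s)⟩
  have h := dist_le_of_trajectories_ODE_of_mem (v := fun _ => Y G)
    (s := fun _ => US G ×ˢ Metric.closedBall 0 1) (a := 0) (b := t) (δ := dist z w)
    (fun _ _ => hL) (fun s _ => (hd z hz s).continuousAt.continuousWithinAt)
    (fun s _ => (hd z hz s).hasDerivWithinAt) (fun s _ => hm z hz s)
    (fun s _ => (hd w hw s).continuousAt.continuousWithinAt)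
    (fun s _ => (hd w hw s).hasDerivWithinAt) (fun s _ => hm w hw s)
    (by simp [fl_zero, Prod.dist_eq (x := (z, _))]) t ⟨ht, le_rfl⟩
  rw [sub_zero, mul_comm, Prod.dist_eq, max_le_iff, dist_eq_norm (PT G z t)] at h
  exact h

theorem flow_abs {L : ℝ≥0} (hL : LipschitzOnWith L (Y G) (US G ×ˢ Metric.closedBall 0 1))
    (hz : z ∈ US G) (hw : w ∈ US G) (t : ℝ) :
    dist (fl G (z, t)) (fl G (w, t)) ≤ Real.exp (L * |t|) * dist z w ∧
      ‖PT G z t - PT G w t‖ ≤ Real.exp (L * |t|) * dist z w := by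
  rcases le_total 0 t with ht | ht
  · rw [abs_of_nonneg ht]
    exact flow_pos hL hz hw ht
  · have h := flow_pos hL (rev_US hz) (rev_US hw) (neg_nonneg.2 ht)
    rwa [fl_rev' hz.1, fl_rev' hw.1, PT_rev hz.1, PT_rev hw.1, neg_neg, dist_rev, dist_rev,
      ← abs_of_nonpos ht] at h

theorem norm_conj_sub {A A' B B' C C' : Op N} {M e r : ℝ} (hA' : ‖A'‖ ≤ 1) (hC : ‖C‖ ≤ 1)
    (hB : ‖B‖ ≤ M) (hB' : ‖B'‖ ≤ M) (h1 : ‖A - A'‖ ≤ e) (h2 : ‖B - B'‖ ≤ r) (h3 : ‖C - C'‖ ≤ e) :
    ‖A ∘L B ∘L C - A' ∘L B' ∘L C'‖ ≤ 2 * M * e + r := by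
  have tri : ∀ (X Y Z : Op N) (x y z : ℝ), ‖X‖ ≤ x → ‖Y‖ ≤ y → ‖Z‖ ≤ z →
      ‖X ∘L Y ∘L Z‖ ≤ x * (y * z) := fun X Y Z x y z hx hy hz =>
    (X.opNorm_comp_le _).trans (mul_le_mul hx ((Y.opNorm_comp_le _).trans
      (mul_le_mul hy hz (norm_nonneg _) ((norm_nonneg _).trans hy))) (norm_nonneg _)
      ((norm_nonneg _).trans hx))
  have e1 : A ∘L B ∘L C - A' ∘L B' ∘L C' =
      (A - A') ∘L B ∘L C + A' ∘L (B - B') ∘L C + A' ∘L B' ∘L (C - C') := by
    ext1 x
    simp
  rw [e1]
  have a1 := tri _ _ _ _ _ _ h1 hB hC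
  have a2 := tri _ _ _ _ _ _ hA' h2 hC
  have a3 := tri _ _ _ _ _ _ hA' hB' h3
  refine norm_add₃_le.trans ?_
  linarith

end Lip

open Lip in
theorem lipS : LipS := by
  intro n N κ S G hc
  have hK := isCompact_US G hc
  obtain ⟨L0, h0⟩ := lip_cpt (contDiff_Y G) (hK.prod (isCompact_closedBall (0 : Op N) 1))
  obtain ⟨L1, h1⟩ := lip_cpt (contDiff_Rm G) hK
  obtain ⟨L2, h2⟩ := lip_cpt (contDiff_Pv (G := G)) hK
  obtain ⟨M', hM'⟩ := hK.exists_bound_of_continuousOn (contDiff_Rm G).continuous.continuousOn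
  obtain ⟨M, hM0, hM⟩ : ∃ M, 0 ≤ M ∧ ∀ q ∈ US G, ‖Rm G q‖ ≤ M :=
    ⟨|M'|, abs_nonneg _, fun q hq => (hM' q hq).trans (le_abs_self _)⟩
  have p0 := L0.2
  have p1 := L1.2
  have p2 := L2.2
  refine ⟨L0 + L1 + L2 + 2 * M + 1, by positivity, fun z hz w hw t => ?_⟩
  obtain ⟨a1, a2⟩ := flow_abs h0 hz hw t
  have e : Real.exp (L0 * |t|) * dist z w ≤
      Real.exp ((L0 + L1 + L2 + 2 * M + 1) * |t|) * dist z w := by
    gcongr
    simp only [NNReal.val_eq_coe] at p1 p2
    linarith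
  replace a1 := a1.trans e
  replace a2 := a2.trans e
  refine ⟨a1, a2, ?_, ?_⟩
  · have a3 := h1.dist_le_mul _ (fl_US hz t) _ (fl_US hw t)
    rw [dist_eq_norm] at a3
    refine (norm_conj_sub (opNorm_PTi hw.1 t) (opNorm_PT hz.1 t) (hM _ (fl_US hz t))
      (hM _ (fl_US hw t)) ((norm_PTi_sub z w t).trans_le a2)
      (a3.trans (mul_le_mul_of_nonneg_left a1 L1.2)) a2).trans ?_
    rw [mul_assoc _ (Real.exp _), ← add_mul]
    refine mul_le_mul_of_nonneg_right ?_ (by positivity)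
    simp only [NNReal.val_eq_coe] at p0 p2 ⊢
    linarith
  · have a3 := h2.dist_le_mul _ hz _ hw
    rw [dist_eq_norm] at a3
    refine a3.trans ?_
    gcongr
    simp only [NNReal.val_eq_coe] at p0 p1
    linarith

namespace Lip

variable {n N : ℕ} {a : ℝ} {S : Set (Euc N)} {G : Geo n N (-(a ^ 2)) S} {z w : TT N}
  {V : TT N → Op N}

/-- the extension of `hat V` by `a` on `Vpᗮ` -/
def ext (G : Geo n N (-(a ^ 2)) S) (V : TT N → Op N) (z : TT N) (t : ℝ) : Op N :=
  hat G V z t + a • (ContinuousLinearMap.id ℝ (Euc N) - Pv G z)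

/-- the extended curvature -/
def extR (G : Geo n N (-(a ^ 2)) S) (z : TT N) (t : ℝ) : Op N :=
  Rh G z t - a ^ 2 • (ContinuousLinearMap.id ℝ (Euc N) - Pv G z)

theorem ext_ric (h : IsU G V) (hz : z ∈ US G) (t : ℝ) :
    HasDerivAt (ext G V z) (-(ext G V z t ∘L ext G V z t) - extR G z t) t := by
  refine ((h.ric z hz t).add_const _).congr_deriv ?_
  ext1 x
  simp only [ext, extR, sub_apply, neg_apply, add_apply, smul_apply,
    ContinuousLinearMap.comp_apply, ContinuousLinearMap.id_apply, map_add, map_sub, map_smul,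
    h.hat_Pv hz, Pv_Pv hz, Pv_of_mem hz.1 (h.hat_mem hz t x)]
  module

theorem ext_symm (h : IsU G V) (hz : z ∈ US G) (t : ℝ) (x y : Euc N) :
    ⟪ext G V z t x, y⟫ = ⟪x, ext G V z t y⟫ := by
  simp only [ext, sub_apply, add_apply, smul_apply, ContinuousLinearMap.id_apply, inner_add_left,
    inner_add_right, inner_smul_left, inner_smul_right, inner_sub_left, inner_sub_right,
    h.hat_symm hz, inner_Pv hz.1, conj_trivial]

theorem norm_ext {b : ℝ} (ha : 0 < a) (hb : ∀ q ∈ US G, ‖V q‖ ≤ b) (hz : z ∈ US G) (t : ℝ) :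
    ‖ext G V z t‖ ≤ b + 2 * a := by
  refine (norm_add_le _ _).trans (add_le_add ((norm_hat V hz.1 t).trans (hb _ (fl_US hz t))) ?_)
  rw [norm_smul, Real.norm_of_nonneg ha.le, mul_comm]
  gcongr
  refine (norm_sub_le _ _).trans ?_
  linarith [ContinuousLinearMap.norm_id_le (𝕜 := ℝ) (E := Euc N), opNorm_Pv hz]

theorem continuous_extR (hz : z ∈ US G) : Continuous (extR G z) :=
  (contDiff_Rh hz.1).continuous.sub continuous_const

/-- comparison of `V z` and `V w` along the past of length `T` -/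
theorem compare (hR : RicS) (h : IsU G V) {b L : ℝ} (ha : 0 < a) (hL : 0 < L)
    (hb : ∀ q ∈ US G, ‖V q‖ ≤ b) (hz : z ∈ US G) (hw : w ∈ US G)
    (h1 : ∀ t, ‖Rh G z t - Rh G w t‖ ≤ L * Real.exp (L * |t|) * dist z w)
    (h2 : ‖Pv G z - Pv G w‖ ≤ L * dist z w) {T : ℝ} (hT : 0 ≤ T) :
    ‖V z - V w‖ ≤ Real.sqrt N * (Real.exp (-(2 * a * T)) * (2 * (b + 2 * a)) +
      (L + a ^ 2 * L) * (Real.exp ((L + 1) * T) * dist z w)) + a * (L * dist z w) := by
  have key := hR N a (ext G V z) (ext G V w) (extR G z) (extR G w) (-T) 0 ha (by linarith)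
    (continuous_extR hz).continuousOn (continuous_extR hw).continuousOn
    (fun u _ => ext_ric h hz u) (fun u _ => ext_ric h hw u) (fun u _ => ext_symm h hz u)
    (fun u _ => ext_symm h hw u) (fun u _ => h.ext_lower hz u) (fun u _ => h.ext_lower hw u)
  have e1 : V z - V w = (ext G V z 0 - ext G V w 0) + a • (Pv G z - Pv G w) := by
    simp only [ext, hat_zero]
    module
  have b1 : ‖ext G V z (-T) - ext G V w (-T)‖ ≤ 2 * (b + 2 * a) :=
    (norm_sub_le _ _).trans (by linarith [norm_ext ha hb hz (-T), norm_ext ha hb hw (-T)])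
  have hd := dist_nonneg (x := z) (y := w)
  have b2 : ∫ u in (-T)..0, Real.exp (-(2 * a * (0 - u))) * ‖extR G z u - extR G w u‖ ≤
      (L + a ^ 2 * L) * (Real.exp ((L + 1) * T) * dist z w) := by
    refine (Real.le_norm_self _).trans ((intervalIntegral.norm_integral_le_of_norm_le_const
      (C := (L + a ^ 2 * L) * (Real.exp (L * T) * dist z w)) fun u hu => ?_).trans ?_)
    · rw [uIoc_of_le (by linarith)] at hu
      have e2 : extR G z u - extR G w u = (Rh G z u - Rh G w u) + a ^ 2 • (Pv G z - Pv G w) := by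
        simp only [extR]
        module
      have c1 : Real.exp (-(2 * a * (0 - u))) ≤ 1 := Real.exp_le_one_iff.2 (by nlinarith [hu.2])
      have c2 : Real.exp (L * |u|) ≤ Real.exp (L * T) := by
        gcongr
        exact abs_le.2 ⟨hu.1.le, by linarith [hu.2]⟩
      have c3 : 1 ≤ Real.exp (L * T) := Real.one_le_exp (by positivity)
      rw [Real.norm_of_nonneg (by positivity), e2]
      refine (mul_le_of_le_one_left (norm_nonneg _) c1).trans ((norm_add_le _ _).trans ?_)
      rw [norm_smul, Real.norm_of_nonneg (sq_nonneg a)]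
      calc _ ≤ L * Real.exp (L * T) * dist z w + a ^ 2 * (L * (Real.exp (L * T) * dist z w)) := by
            gcongr
            · exact (h1 u).trans (by gcongr)
            · exact h2.trans (by gcongr; exact le_mul_of_one_le_left hd c3)
        _ = _ := by ring
    · rw [sub_neg_eq_add, zero_add, abs_of_nonneg hT, mul_assoc]
      refine mul_le_mul_of_nonneg_left ?_ (by positivity)
      rw [add_mul, one_mul, Real.exp_add, mul_right_comm]
      gcongr
      linarith [Real.add_one_le_exp T]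
  rw [e1]
  refine (norm_add_le _ _).trans (add_le_add (key.trans ?_) ?_)
  · rw [sub_neg_eq_add, zero_add]
    gcongr
  · rw [norm_smul, Real.norm_of_nonneg ha.le]
    gcongr

end Lip

open Lip in
theorem uHolS (hR : RicS) (hU : UExS) : UHolS := by
  intro n N a S G H
  have h := hU n N a S G H
  have ha := H.a_pos
  obtain ⟨L, hL, hLip⟩ := lipS n N _ S G H.cpt
  obtain ⟨b, hb0, hb⟩ := h.exists_bound H.cpt
  have hD : 0 < L + 1 + 2 * a := by positivity
  set θ := 2 * a / (L + 1 + 2 * a) with hθ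
  have θ0 : 0 < θ := by positivity
  have θ1 : θ ≤ 1 := (div_le_one hD).2 (by linarith)
  set C := Real.sqrt N * (2 * (b + 2 * a) + (L + a ^ 2 * L)) + a * L + 2 * b with hC
  have C0 : 0 < C := by positivity
  have key : ∀ z ∈ US G, ∀ w ∈ US G, ‖U G z - U G w‖ ≤ C * dist z w ^ θ := by
    intro z hz w hw
    rcases (dist_nonneg (x := z) (y := w)).eq_or_lt with h0 | h0
    · rw [dist_eq_zero.1 h0.symm, sub_self, norm_zero]
      positivity
    rcases le_total (dist z w) 1 with h1 | h1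
    · have hl := Real.log_nonpos h0.le h1
      have k := compare hR h ha hL hb hz hw (fun t => (hLip z hz w hw t).2.2.1)
        (hLip z hz w hw 0).2.2.2 (T := -Real.log (dist z w) / (L + 1 + 2 * a))
        (div_nonneg (by linarith) hD.le)
      have e1 : Real.exp (-(2 * a * (-Real.log (dist z w) / (L + 1 + 2 * a)))) = dist z w ^ θ := by
        rw [Real.rpow_def_of_pos h0, hθ]
        congr 1
        ring
      have e2 : Real.exp ((L + 1) * (-Real.log (dist z w) / (L + 1 + 2 * a))) * dist z w =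
          dist z w ^ θ := by
        rw [Real.rpow_def_of_pos h0, hθ]
        nth_rw 2 [← Real.exp_log h0]
        rw [← Real.exp_add]
        congr 1
        field_simp
        ring
      have e3 : dist z w ≤ dist z w ^ θ := by
        simpa using Real.rpow_le_rpow_of_exponent_ge h0 h1 θ1
      have e4 : 0 ≤ dist z w ^ θ := by positivity
      rw [e1, e2] at k
      refine k.trans ?_
      calc _ ≤ Real.sqrt N * (dist z w ^ θ * (2 * (b + 2 * a)) + (L + a ^ 2 * L) * dist z w ^ θ) +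
            a * (L * dist z w ^ θ) + 2 * b * dist z w ^ θ := by
            refine le_add_of_le_of_nonneg ?_ (by positivity)
            gcongr
        _ = _ := by rw [hC]; ring
    · have e3 : 1 ≤ dist z w ^ θ := Real.one_le_rpow h1 θ0.le
      refine (norm_sub_le _ _).trans ?_
      calc _ ≤ 2 * b := by linarith [hb z hz, hb w hw]
        _ ≤ C := le_add_of_nonneg_left (by positivity)
        _ ≤ _ := le_mul_of_one_le_right C0.le e3
  let tr : Op N →L[ℝ] ℝ := LinearMap.toContinuousLinearMap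
    (LinearMap.trace ℝ (Euc N) ∘ₗ ContinuousLinearMap.coeLM ℝ)
  refine ⟨θ, (‖tr‖ + 1) * C, θ0, θ1, by positivity, fun z hz w hw => ?_⟩
  have k := key z hz w hw
  have e4 : 0 ≤ C * dist z w ^ θ := by positivity
  have e5 := norm_nonneg tr
  rw [mul_assoc]
  refine ⟨k.trans (le_mul_of_one_le_left e4 (by linarith)), ?_⟩
  have e6 : tau G z - tau G w = tr (U G z - U G w) := by rw [map_sub]; rfl
  rw [e6, ← Real.norm_eq_abs]
  refine (tr.le_opNorm _).trans ?_
  gcongr
  linarith

end Crest.Agent.N221
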