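import Mathlib

/-!
# Row 221: contraction of symmetric Riccati solutions, the calculus part (helper88)
-/

set_option autoImplicit false

open Set Filter Topology
open scoped RealInnerProductSpace

namespace Crest.Agent.N221.RicH

variable {N : ℕ}

local notation "E" => EuclideanSpace ℝ (Fin N)

/-- the standard basis -/
noncomputable abbrev eb (i : Fin N) : E := EuclideanSpace.basisFun (Fin N) ℝ i

/-- squared Hilbert-Schmidt norm -/
noncomputable def hs (D : E →L[ℝ] E) : ℝ := ∑ i, ‖D (eb i)‖ ^ 2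

lemma hs_nonneg (D : E →L[ℝ] E) : 0 ≤ hs D := Finset.sum_nonneg fun _ _ => sq_nonneg _

lemma norm_eb (i : Fin N) : ‖(eb i : E)‖ = 1 := (EuclideanSpace.basisFun (Fin N) ℝ).orthonormal.1 i

lemma hs_le (D : E →L[ℝ] E) : hs D ≤ N * ‖D‖ ^ 2 := by
  have h : ∀ i ∈ (Finset.univ : Finset (Fin N)), ‖D (eb i)‖ ^ 2 ≤ ‖D‖ ^ 2 := fun i _ =>
    pow_le_pow_left₀ (norm_nonneg _) (by simpa [norm_eb] using D.le_opNorm (eb i)) 2
  simpa [hs] using Finset.sum_le_card_nsmul _ _ _ h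

lemma sqrt_hs_le (D : E →L[ℝ] E) : √(hs D) ≤ √N * ‖D‖ := by
  rw [← Real.sqrt_sq (norm_nonneg D), ← Real.sqrt_mul (Nat.cast_nonneg N)]
  exact Real.sqrt_le_sqrt (hs_le D)

lemma norm_le (D : E →L[ℝ] E) : ‖D‖ ≤ √(hs D) := by
  refine D.opNorm_le_bound (Real.sqrt_nonneg _) fun x => ?_
  have h1 : D x = ∑ i, x i • D (eb i) := by
    conv_lhs => rw [← (EuclideanSpace.basisFun (Fin N) ℝ).sum_repr x]
    simp [map_sum]
  have h2 : ‖D x‖ ≤ ∑ i, ‖D (eb i)‖ * |x i| := by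
    rw [h1]
    refine (norm_sum_le _ _).trans (le_of_eq (Finset.sum_congr rfl fun i _ => ?_))
    rw [norm_smul, Real.norm_eq_abs, mul_comm]
  refine h2.trans ((Real.sum_mul_le_sqrt_mul_sqrt _ _ _).trans (le_of_eq ?_))
  rw [EuclideanSpace.norm_eq]
  rfl

lemma cyc {D W : E →L[ℝ] E} (hD : ∀ x y, ⟪D x, y⟫ = ⟪x, D y⟫) (hW : ∀ x y, ⟪W x, y⟫ = ⟪x, W y⟫) :
    ∑ i, ⟪D (eb i), D (W (eb i))⟫ = ∑ j, ⟪W (D (eb j)), D (eb j)⟫ := by
  have h1 : ∀ i, ⟪D (eb i), D (W (eb i))⟫ = ∑ j, ⟪W (D (eb j)), eb i⟫ * ⟪eb i, D (eb j)⟫ := by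
    intro i
    rw [← (EuclideanSpace.basisFun (Fin N) ℝ).sum_inner_mul_inner]
    refine Finset.sum_congr rfl fun j _ => ?_
    rw [hD (eb i), ← hD (eb j) (W (eb i)), hW (D (eb j)), mul_comm]
  simp only [h1]
  rw [Finset.sum_comm]
  exact Finset.sum_congr rfl fun j _ =>
    (EuclideanSpace.basisFun (Fin N) ℝ).sum_inner_mul_inner _ _

lemma hasDerivAt_hs {D : ℝ → E →L[ℝ] E} {D' : E →L[ℝ] E} {u : ℝ} (h : HasDerivAt D D' u) :
    HasDerivAt (fun u => hs (D u)) (∑ i, 2 * ⟪D u (eb i), D' (eb i)⟫) u := by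
  refine HasDerivAt.fun_sum fun i _ => ?_
  have h1 : HasDerivAt (fun u => D u (eb i)) (D' (eb i)) u := by
    simpa using h.clm_apply (hasDerivAt_const u (eb i))
  exact h1.norm_sq

lemma deriv_le {a : ℝ} {V W F : E →L[ℝ] E} (hV : ∀ x y, ⟪V x, y⟫ = ⟪x, V y⟫)
    (hW : ∀ x y, ⟪W x, y⟫ = ⟪x, W y⟫) (aV : ∀ x, a * ‖x‖ ^ 2 ≤ ⟪V x, x⟫)
    (aW : ∀ x, a * ‖x‖ ^ 2 ≤ ⟪W x, x⟫) :
    ∑ i, 2 * ⟪(V - W) (eb i), (-(V ∘L V) + W ∘L W - F) (eb i)⟫ ≤
      -(4 * a * hs (V - W)) + 2 * √(hs (V - W)) * (√N * ‖F‖) := by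
  set D := V - W with hD
  have hDs : ∀ x y, ⟪D x, y⟫ = ⟪x, D y⟫ := fun x y => by
    simp only [hD, sub_apply, inner_sub_left, inner_sub_right, hV, hW]
  have e : ∀ x, (-(V ∘L V) + W ∘L W - F) x = -V (D x) - D (W x) - F x := fun x => by
    simp only [hD, sub_apply, add_apply,
      neg_apply, ContinuousLinearMap.comp_apply, map_sub]
    abel
  simp only [e, inner_sub_right, inner_neg_right, mul_sub, Finset.sum_sub_distrib, ← Finset.mul_sum,
    Finset.sum_neg_distrib]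
  have h1 : a * hs D ≤ ∑ i, ⟪D (eb i), V (D (eb i))⟫ := by
    rw [hs, Finset.mul_sum]
    exact Finset.sum_le_sum fun i _ => (aV _).trans_eq (real_inner_comm _ _)
  have h2 : a * hs D ≤ ∑ i, ⟪D (eb i), D (W (eb i))⟫ := by
    rw [cyc hDs hW, hs, Finset.mul_sum]
    exact Finset.sum_le_sum fun i _ => aW _
  have h3 : -∑ i, ⟪D (eb i), F (eb i)⟫ ≤ √(hs D) * √(hs F) := by
    refine le_trans ?_ (Real.sum_mul_le_sqrt_mul_sqrt Finset.univ (fun i => ‖D (eb i)‖)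
      fun i => ‖F (eb i)‖)
    rw [← Finset.sum_neg_distrib]
    exact Finset.sum_le_sum fun i _ => (neg_le_abs _).trans (abs_real_inner_le_norm _ _)
  have h4 := mul_le_mul_of_nonneg_left (sqrt_hs_le F) (Real.sqrt_nonneg (hs D))
  linarith

/-- the scalar differential inequality `f' ≤ -4 a f + 2 √f g` -/
lemma scalar {a s t : ℝ} {f f' g : ℝ → ℝ} (ha : 0 < a) (hst : s ≤ t) (hg : ContinuousOn g (Icc s t))
    (hg0 : ∀ u, 0 ≤ g u) (hf0 : ∀ u, 0 ≤ f u) (hf : ∀ u ∈ Icc s t, HasDerivAt f (f' u) u)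
    (h : ∀ u ∈ Icc s t, f' u ≤ -(4 * a * f u) + 2 * √(f u) * g u) :
    √(f t) ≤ Real.exp (-(2 * a * (t - s))) * √(f s) +
      ∫ u in s..t, Real.exp (-(2 * a * (t - u))) * g u := by
  have hk : ContinuousOn (fun u => Real.exp (-(2 * a * (t - u))) * g u) (Icc s t) :=
    (by fun_prop : Continuous fun u => Real.exp (-(2 * a * (t - u)))).continuousOn.mul hg
  refine le_of_forall_pos_le_add fun ε hε => ?_
  have hp : ∀ u, 0 < f u + ε ^ 2 := fun u => by have := hf0 u; positivity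
  have hd : ∀ u ∈ Icc s t, HasDerivAt
      (fun u => Real.exp (-(2 * a * (t - u))) * (√(f u + ε ^ 2) - ε))
      (Real.exp (-(2 * a * (t - u))) * (2 * a * (√(f u + ε ^ 2) - ε) +
        f' u / (2 * √(f u + ε ^ 2)))) u := fun u hu => by
    have h1 := ((((hasDerivAt_id u).const_sub t).const_mul (2 * a)).fun_neg).exp
    refine (h1.fun_mul ((((hf u hu).add_const (ε ^ 2)).sqrt (hp u).ne').sub_const ε)).congr_deriv ?_
    simp only [id]; ring
  have key := intervalIntegral.sub_le_integral_of_hasDeriv_right_of_le hst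
    (fun u hu => (hd u hu).continuousAt.continuousWithinAt)
    (fun u hu => (hd u (Ioo_subset_Icc_self hu)).hasDerivWithinAt) (hk.integrableOn_Icc)
    fun u hu => by
      refine mul_le_mul_of_nonneg_left ?_ (Real.exp_pos _).le
      have h1 := h u (Ioo_subset_Icc_self hu)
      have hq := Real.sqrt_pos.2 (hp u)
      have hq2 := Real.sq_sqrt (hp u).le
      have h2 : √(f u) ≤ √(f u + ε ^ 2) := Real.sqrt_le_sqrt (by linarith [sq_nonneg ε])
      have h3 : ε ≤ √(f u + ε ^ 2) := Real.le_sqrt_of_sq_le (by linarith [hf0 u])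
      set q := √(f u + ε ^ 2)
      have h4 : f' u / (2 * q) ≤ g u - 2 * a * (q - ε) := by
        rw [div_le_iff₀ (by positivity)]
        have h5 := mul_le_mul_of_nonneg_right h2 (hg0 u)
        have h6 := mul_le_mul_of_nonneg_left h3 (by positivity : 0 ≤ a * ε)
        have h7 : a * f u = a * q ^ 2 - a * ε ^ 2 := by rw [hq2]; ring
        linarith
      linarith
  simp only [sub_self, mul_zero, neg_zero, Real.exp_zero, one_mul] at key
  have h1 : √(f t) ≤ √(f t + ε ^ 2) := Real.sqrt_le_sqrt (by linarith [sq_nonneg ε])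
  have h2 : √(f s + ε ^ 2) - ε ≤ √(f s) := by
    have : √(f s + ε ^ 2) ≤ √(f s) + ε := Real.sqrt_le_iff.2 ⟨by positivity, by
      have := Real.sq_sqrt (hf0 s)
      have : 0 ≤ √(f s) * ε := by positivity
      linarith⟩
    linarith
  have h3 := mul_le_mul_of_nonneg_left h2 (Real.exp_pos (-(2 * a * (t - s)))).le
  linarith

theorem ric (a : ℝ) (V W R R' : ℝ → E →L[ℝ] E) (s t : ℝ) (ha : 0 < a) (hst : s ≤ t)
    (hR : ContinuousOn R (Icc s t)) (hR' : ContinuousOn R' (Icc s t))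
    (hV : ∀ u ∈ Icc s t, HasDerivAt V (-(V u ∘L V u) - R u) u)
    (hW : ∀ u ∈ Icc s t, HasDerivAt W (-(W u ∘L W u) - R' u) u)
    (sV : ∀ u ∈ Icc s t, ∀ x y, ⟪V u x, y⟫ = ⟪x, V u y⟫)
    (sW : ∀ u ∈ Icc s t, ∀ x y, ⟪W u x, y⟫ = ⟪x, W u y⟫)
    (aV : ∀ u ∈ Icc s t, ∀ x, a * ‖x‖ ^ 2 ≤ ⟪V u x, x⟫)
    (aW : ∀ u ∈ Icc s t, ∀ x, a * ‖x‖ ^ 2 ≤ ⟪W u x, x⟫) :
    ‖V t - W t‖ ≤ Real.sqrt N * (Real.exp (-(2 * a * (t - s))) * ‖V s - W s‖ +
      ∫ u in s..t, Real.exp (-(2 * a * (t - u))) * ‖R u - R' u‖) := by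
  have h := scalar (f := fun u => hs (V u - W u)) (g := fun u => √N * ‖R u - R' u‖)
    (f' := fun u => ∑ i, 2 * ⟪(V u - W u) (eb i),
      (-(V u ∘L V u) + W u ∘L W u - (R u - R' u)) (eb i)⟫) ha hst
    (continuousOn_const.mul (hR.sub hR').norm) (fun u => by positivity) (fun u => hs_nonneg _)
    (fun u hu => hasDerivAt_hs (D := fun u => V u - W u)
      (((hV u hu).sub (hW u hu)).congr_deriv (by abel)))
    fun u hu => deriv_le (sV u hu) (sW u hu) (aV u hu) (aW u hu)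
  have h1 := mul_le_mul_of_nonneg_left (sqrt_hs_le (V s - W s))
    (Real.exp_pos (-(2 * a * (t - s)))).le
  have e : ∫ u in s..t, Real.exp (-(2 * a * (t - u))) * (√N * ‖R u - R' u‖) =
      √N * ∫ u in s..t, Real.exp (-(2 * a * (t - u))) * ‖R u - R' u‖ := by
    rw [← intervalIntegral.integral_const_mul]
    congr 1; funext u; ring
  rw [e] at h
  linarith [norm_le (V t - W t)]

end Crest.Agent.N221.RicH
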