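import Crest.Agent.N221.Defs
import Crest.Agent.N221.U.Ric0

/-! # Row 221: `RicS` (helper88) -/

set_option autoImplicit false

namespace Crest.Agent.N221

theorem ricS : RicS := fun _ a V W R R' s t => RicH.ric a V W R R' s t

end Crest.Agent.N221
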